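import Vale.Agent.P213.HT.Gluing

/-!
# Coproducts of weak homotopy equivalences
-/

open CategoryTheory Limits MorphismProperty MonoidalCategory Simplicial

namespace Vale.Agent.P213.HT

/-- Coproducts of weak equivalences are weak equivalences. -/
theorem coprodGoal : Glue.CoprodGoal := by
  intro ι X Y f hf
  choose M a c r sq hcr har hjr hmono hr using fun x => exists_cylinder (f x)
  have hj : (monomorphisms SSet.{0} ⊓ IsWE) (Limits.Sigma.map fun x => SSet.ι₀ ≫ a x) :=
    MorphismProperty.colimMap _ fun ⟨x⟩ => ⟨hmono x,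
      IsWE.of_comp_right (f := SSet.ι₀ ≫ a x) (hr x) (by rw [hjr]; exact hf x)⟩
  have hc : SSet.anodyneExtensions (Limits.Sigma.map c) :=
    MorphismProperty.colimMap _ fun ⟨x⟩ =>
      MorphismProperty.of_isPushout (sq x).flip (anodyne_ι₁ _)
  rw [show Limits.Sigma.map f = Limits.Sigma.map (fun x => SSet.ι₀ ≫ a x) ≫ Limits.Sigma.map r from
    Sigma.hom_ext _ _ fun x => by simp [← hjr x]]
  exact hj.2.comp (isWE_of_section (isWE_of_anodyneExtension hc)
    (Sigma.hom_ext _ _ fun x => by simp [reassoc_of% (hcr x)]))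

end Vale.Agent.P213.HT
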