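import Vale.Agent.P213.HT.Proper
import Vale.Agent.P213.Glue.Basic

/-!
# The gluing lemma, transfinite compositions
-/

open CategoryTheory Limits MorphismProperty

namespace Vale.Agent.P213.HT

variable {A B P Q A' B' P' Q' : SSet.{0}}

/-- A weak equivalence `β` under `P` between two monomorphisms out of `P` stays one after
cobase change along any map `P ⟶ P'`. -/
lemma isWE_pushout_under {i : P ⟶ B} {i' : P ⟶ Q} [Mono i] [Mono i'] {β : B ⟶ Q}
    (hi : i ≫ β = i') (hβ : IsWE β) {f : P ⟶ P'} {g : B ⟶ B'} {j : P' ⟶ B'}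
    (sq : IsPushout i f g j) {g' : Q ⟶ Q'} {j' : P' ⟶ Q'} (sq' : IsPushout i' f g' j')
    {d : B' ⟶ Q'} (hg : g ≫ d = β ≫ g') (hj : j ≫ d = j') : IsWE d := by
  obtain ⟨M, a, c, r, -, -, -, hkr, hk, hr⟩ := exists_cylinder f
  generalize SSet.ι₀ ≫ a = k at hkr hk
  subst hkr
  have sqB := IsPushout.of_hasPushout i k
  have sqQ := IsPushout.of_hasPushout i' k
  have : Mono (pushout.inl i k) := mono_pushoutInr sqB.flip
  have : Mono (pushout.inr i k) := mono_pushoutInr sqB
  have : Mono (pushout.inr i' k) := mono_pushoutInr sqQ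
  let R := sqB.desc g (r ≫ j) (by rw [sq.w, Category.assoc])
  let R' := sqQ.desc g' (r ≫ j') (by rw [sq'.w, Category.assoc])
  have hR : IsWE R := isWE_pushout_of_mono (IsPushout.of_top
    (v₁₂ := pushout.inl i k) (v₂₂ := R) (by rw [IsPushout.inl_desc]; exact sq)
    (IsPushout.inr_desc _ _ _ _) sqB) hr
  have hR' : IsWE R' := isWE_pushout_of_mono (IsPushout.of_top
    (v₁₂ := pushout.inl i' k) (v₂₂ := R') (by rw [IsPushout.inl_desc]; exact sq')
    (IsPushout.inr_desc _ _ _ _) sqQ) hr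
  let δ := sqB.desc (β ≫ pushout.inl i' k) (pushout.inr i' k) (by
    rw [← Category.assoc, hi, sqQ.w])
  have sqδ : IsPushout β (pushout.inl i k) (pushout.inl i' k) δ := IsPushout.of_left
    (h₁₁ := i) (h₂₁ := pushout.inr i k) (by rw [hi, IsPushout.inr_desc]; exact sqQ)
    (IsPushout.inl_desc _ _ _ _).symm sqB
  have hδ : IsWE δ := isWE_pushout_of_mono sqδ.flip hβ
  refine IsWE.of_comp_left hR ?_
  rw [show R ≫ d = δ ≫ R' from sqB.hom_ext (by simp [R, δ, R', hg]) (by simp [R, δ, R', hj])]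
  exact hδ.comp hR'

/-- The gluing lemma. -/
theorem gluingGoal : Glue.GluingGoal := by
  intro A B A' B' P Q P' Q' i f g j i' f' g' j' a b c d sq sq' hi hi' hib hfc hgd hjd ha hb hc
  have sq₁ := IsPushout.of_hasPushout i a
  have hb₁ : IsWE (pushout.inl i a) := isWE_pushout_of_mono sq₁ ha
  have : Mono (pushout.inr i a) := mono_pushoutInr sq₁
  let β := sq₁.desc b i' hib
  have hβ : IsWE β := IsWE.of_comp_left hb₁ (by rw [IsPushout.inl_desc]; exact hb)
  have : Mono j := mono_pushoutInr sq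
  have sqX := IsPushout.of_hasPushout j c
  have he : IsWE (pushout.inl j c) := isWE_pushout_of_mono sqX hc
  let g₁ := sq₁.desc (g ≫ pushout.inl j c) (f' ≫ pushout.inr j c) (by
    rw [sq.w_assoc, sqX.w, reassoc_of% hfc])
  have sqg : IsPushout (pushout.inr i a) f' g₁ (pushout.inr j c) := IsPushout.of_top
    (v₁₂ := pushout.inl i a) (v₂₂ := g₁)
    (by rw [IsPushout.inl_desc, ← hfc]; exact sq.paste_vert sqX)
    (IsPushout.inr_desc _ _ _ _) sq₁
  let d₁ := sqX.desc d j' hjd
  rw [show d = pushout.inl j c ≫ d₁ from (IsPushout.inl_desc _ _ _ _).symm]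
  refine he.comp (isWE_pushout_under (IsPushout.inr_desc _ _ _ _) hβ sqg sq' ?_
    (IsPushout.inr_desc _ _ _ _))
  apply sq₁.hom_ext
  · simp [g₁, d₁, hgd]
  · simp [g₁, d₁, sq'.w]

theorem transfiniteGoal : TransfiniteGoal := by
  unfold TransfiniteGoal
  infer_instance

end Vale.Agent.P213.HT
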