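import Vale.Agent.P213.Basic.WE
import Mathlib.AlgebraicTopology.SimplicialSet.AnodyneExtensions.PushoutProduct

/-!
# Homotopies and the exponential law
-/

open CategoryTheory MonoidalCategory CartesianMonoidalCategory MonoidalClosed Simplicial Limits
open HomotopicalAlgebra SSet.modelCategoryQuillen

namespace Vale.Agent.P213.HT

variable {X Y Z K A B : SSet.{0}}

lemma Htpc.mk {f g : X ⟶ Y} (h : X ⊗ Δ[1] ⟶ Y) (h₀ : SSet.ι₀ ≫ h = f) (h₁ : SSet.ι₁ ≫ h = g) :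
    Htpc f g :=
  ⟨{ h := h, h₀ := h₀, h₁ := h₁, rel := by ext n x; exact x.1.2.elim }⟩

lemma Htpc.exists_map {f g : X ⟶ Y} (H : Htpc f g) :
    ∃ h : X ⊗ Δ[1] ⟶ Y, SSet.ι₀ ≫ h = f ∧ SSet.ι₁ ≫ h = g :=
  ⟨H.some.h, H.some.h₀, H.some.h₁⟩

/-- `X ⟶ X ⊗ Δ[0]` -/
noncomputable def toPoint (X : SSet.{0}) : X ⟶ X ⊗ Δ[0] :=
  lift (𝟙 X) (SSet.stdSimplex.isTerminalObj₀.from X)

@[reassoc]
lemma toPoint_naturality (f : X ⟶ Y) : f ≫ toPoint Y = toPoint X ≫ f ▷ Δ[0] := by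
  apply CartesianMonoidalCategory.hom_ext <;> simp [toPoint]

@[reassoc (attr := simp)]
lemma toPoint_fst (X : SSet.{0}) : toPoint X ≫ fst X Δ[0] = 𝟙 X := by simp [toPoint]

@[reassoc]
lemma toPoint_δ_one (X : SSet.{0}) : toPoint X ≫ X ◁ SSet.stdSimplex.δ 1 = SSet.ι₀ := by
  apply CartesianMonoidalCategory.hom_ext
  · simp [toPoint]
  · ext n x
    apply SSet.stdSimplex.objEquiv.injective
    ext k
    rfl

@[reassoc]
lemma toPoint_δ_zero (X : SSet.{0}) : toPoint X ≫ X ◁ SSet.stdSimplex.δ 0 = SSet.ι₁ := by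
  apply CartesianMonoidalCategory.hom_ext
  · simp [toPoint]
  · ext n x
    apply SSet.stdSimplex.objEquiv.injective
    ext k
    rfl

/-- The vertices of a path in an internal hom. -/
lemma ι₀_uncurry (e : Δ[1] ⟶ (ihom X).obj Y) :
    SSet.ι₀ ≫ uncurry e = toPoint X ≫ uncurry (SSet.stdSimplex.δ 1 ≫ e) := by
  rw [uncurry_natural_left, toPoint_δ_one_assoc]

lemma ι₁_uncurry (e : Δ[1] ⟶ (ihom X).obj Y) :
    SSet.ι₁ ≫ uncurry e = toPoint X ≫ uncurry (SSet.stdSimplex.δ 0 ≫ e) := by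
  rw [uncurry_natural_left, toPoint_δ_zero_assoc]

/-- Exchange the two variables of an exponential. -/
noncomputable def swap (g : Z ⟶ (ihom B).obj K) : B ⟶ (ihom Z).obj K :=
  curry ((β_ Z B).hom ≫ uncurry g)

@[simp]
lemma swap_swap (g : Z ⟶ (ihom B).obj K) : swap (swap g) = g := by
  simp [swap]

lemma swap_pre (i : A ⟶ B) (g : Z ⟶ (ihom B).obj K) :
    swap (g ≫ (pre i).app K) = i ≫ swap g := by
  rw [swap, swap, uncurry_pre_app, ← curry_natural_left,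
    BraidedCategory.braiding_naturality_right_assoc]

/-- `Z ⊗ (B ⊗ I) ⟶ B ⊗ (Z ⊗ I)` -/
noncomputable def perm (Z B I : SSet.{0}) : Z ⊗ (B ⊗ I) ⟶ B ⊗ (Z ⊗ I) :=
  lift (snd Z (B ⊗ I) ≫ fst B I) (lift (fst Z (B ⊗ I)) (snd Z (B ⊗ I) ≫ snd B I))

lemma htpc_swap {g g' : Z ⟶ (ihom B).obj K} (H : Htpc g g') : Htpc (swap g) (swap g') := by
  obtain ⟨h, h₀, h₁⟩ := Htpc.exists_map H
  refine Htpc.mk (curry (perm Z B _ ≫ uncurry h)) ?_ ?_
  · rw [← curry_natural_left, swap, ← h₀, uncurry_natural_left]; rfl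
  · rw [← curry_natural_left, swap, ← h₁, uncurry_natural_left]; rfl

lemma htpcEqv_swap {g g' : Z ⟶ (ihom B).obj K} (H : HtpcEqv g g') :
    HtpcEqv (swap g) (swap g') := by
  induction H with
  | rel a b h => exact .rel _ _ (htpc_swap h)
  | refl a => exact .refl _
  | symm a b _ ih => exact .symm _ _ ih
  | trans a b c _ _ ih₁ ih₂ => exact .trans _ _ _ ih₁ ih₂

/-- Weak equivalences induce bijections on homotopy classes of maps into exponentials. -/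
lemma exists_lift_pre {i : A ⟶ B} (hi : IsWE i) [SSet.KanComplex K] (g : Z ⟶ (ihom A).obj K) :
    ∃ b : Z ⟶ (ihom B).obj K, HtpcEqv (b ≫ (pre i).app K) g := by
  obtain ⟨b, hb⟩ := (hi ((ihom Z).obj K) inferInstance).1 (swap g)
  refine ⟨swap b, ?_⟩
  have := htpcEqv_swap hb
  rwa [swap_swap, show i ≫ b = swap (swap b ≫ (pre i).app K) by rw [swap_pre, swap_swap],
    swap_swap] at this

lemma htpcEqv_of_pre {i : A ⟶ B} (hi : IsWE i) [SSet.KanComplex K]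
    {b b' : Z ⟶ (ihom B).obj K} (h : HtpcEqv (b ≫ (pre i).app K) (b' ≫ (pre i).app K)) :
    HtpcEqv b b' := by
  have h' := htpcEqv_swap h
  rw [swap_pre, swap_pre] at h'
  simpa using htpcEqv_swap ((hi ((ihom Z).obj K) inferInstance).2 _ _ h')

end Vale.Agent.P213.HT
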