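import Vale.Agent.P213.HT.Curry
import Mathlib.CategoryTheory.MorphismProperty.Composition

/-!
# Monomorphisms which are weak equivalences

For a Kan complex `K` and a monomorphism `i`, the restriction map between exponentials is a
fibration; it is a trivial fibration iff `i` is a weak equivalence.  Hence monomorphisms which
are weak equivalences are a left orthogonality class.
-/

open CategoryTheory MonoidalCategory CartesianMonoidalCategory MonoidalClosed Simplicial Limits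
open HomotopicalAlgebra SSet.modelCategoryQuillen MorphismProperty

namespace Vale.Agent.P213.HT

attribute [local instance 2000] CategoryTheory.FunctorToTypes.monoidalClosed

variable {X Y Z K A B E S U V : SSet.{0}}

theorem anodyne_δ (k : Fin 2) : SSet.anodyneExtensions (SSet.stdSimplex.{0}.δ k : Δ[0] ⟶ Δ[1]) := by
  obtain ⟨i, hi⟩ : ∃ i : Fin 2, k ≠ i := ⟨k + 1, by fin_cases k <;> simp⟩
  have hiso : IsIso (SSet.horn.ι.{0} i k hi) := by
    refine ⟨SSet.stdSimplex.isTerminalObj₀.from _, SSet.stdSimplex.ext₀, ?_⟩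
    refine SSet.horn.hom_ext' (fun j hj => ?_)
    obtain rfl : j = k := by fin_cases i <;> fin_cases j <;> fin_cases k <;> simp_all
    rw [← Category.assoc, Category.comp_id]
    conv_rhs => rw [← Category.id_comp (SSet.horn.ι i j hj)]
    congr 1
    exact SSet.stdSimplex.ext₀
  rw [← SSet.horn.ι_ι i k hi]
  exact SSet.anodyneExtensions.comp_mem _ _ (.of_isIso _) (.horn_ι i)

lemma isIso_toPoint (X : SSet.{0}) : IsIso (toPoint X) :=
  ⟨fst X _, toPoint_fst X, CartesianMonoidalCategory.hom_ext _ _ (by simp [toPoint])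
    SSet.stdSimplex.ext₀⟩

lemma anodyne_ι₀ (X : SSet.{0}) : SSet.anodyneExtensions (SSet.ι₀ : X ⟶ X ⊗ Δ[1]) := by
  have := isIso_toPoint X
  rw [← toPoint_δ_one]
  exact SSet.anodyneExtensions.comp_mem _ _ (.of_isIso _) ((anodyne_δ 1).whiskerLeft X)

lemma anodyne_ι₁ (X : SSet.{0}) : SSet.anodyneExtensions (SSet.ι₁ : X ⟶ X ⊗ Δ[1]) := by
  have := isIso_toPoint X
  rw [← toPoint_δ_zero]
  exact SSet.anodyneExtensions.comp_mem _ _ (.of_isIso _) ((anodyne_δ 0).whiskerLeft X)

lemma toPoint_hom_ext {f g : X ⊗ Δ[0] ⟶ Y} (h : toPoint X ≫ f = toPoint X ≫ g) : f = g := by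
  have := isIso_toPoint X
  rwa [cancel_epi] at h

/-- A homotopy inverse section of a fibration gives a vertical homotopy. -/
lemma exists_vertical (p : E ⟶ S) [Fibration p] (s : S ⟶ E) (hs : s ≫ p = 𝟙 S)
    (H : Htpc (𝟙 E) (p ≫ s)) :
    ∃ H' : E ⊗ Δ[1] ⟶ E, SSet.ι₀ ≫ H' = 𝟙 E ∧ SSet.ι₁ ≫ H' = p ≫ s ∧
      H' ≫ p = fst E Δ[1] ≫ p := by
  obtain ⟨h, h₀, h₁⟩ := Htpc.exists_map H
  let e : Δ[1] ⟶ (ihom E).obj E := curry h
  let q : (ihom E).obj E ⟶ (ihom E).obj S := (ihom E).map p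
  let r : (ihom E).obj E ⟶ (ihom E).obj E := (ihom E).map (p ≫ s)
  let f : ∀ j : Fin 3, j ≠ 2 → (Δ[1] ⟶ (ihom E).obj E) :=
    fun j _ => if j = 0 then e ≫ r else e
  have hv : SSet.stdSimplex.δ (0 : Fin 2) ≫ e ≫ r = SSet.stdSimplex.δ (0 : Fin 2) ≫ e := by
    apply uncurry_injective
    apply toPoint_hom_ext
    rw [← Category.assoc, uncurry_natural_right, ← Category.assoc, ← ι₁_uncurry]
    simp [e, h₁, reassoc_of% hs]
  have hf : SSet.horn.IsCompatible (i := (2 : Fin 3)) f := by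
    intro j k hj hk hjk
    fin_cases j <;> fin_cases k <;> first
      | exact absurd rfl hj
      | exact absurd rfl hk
      | exact absurd hjk (by decide)
      | skip
    simpa [f] using hv
  have hcomm : ∀ (j : Fin 3) (hj : j ≠ 2),
      f j hj ≫ q = SSet.stdSimplex.δ j ≫ SSet.stdSimplex.σ (0 : Fin 2) ≫ e ≫ q := by
    intro j hj
    fin_cases j
    · simp only [f, r, q, ← Functor.map_comp, Category.assoc, hs, ↓reduceIte, Fin.zero_eta,
        Category.comp_id]
      rw [← Category.assoc (SSet.stdSimplex.δ 0),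
        show SSet.stdSimplex.δ (0 : Fin 3) ≫ SSet.stdSimplex.σ (0 : Fin 2) = 𝟙 _ from
          SSet.stdSimplex.δ_comp_σ_self (i := (0 : Fin 2)), Category.id_comp]
    · simp only [f, Fin.mk_one]
      rw [if_neg (by decide), ← Category.assoc (SSet.stdSimplex.δ 1),
        show SSet.stdSimplex.δ (1 : Fin 3) ≫ SSet.stdSimplex.σ (0 : Fin 2) = 𝟙 _ from
          SSet.stdSimplex.δ_comp_σ_succ (i := (0 : Fin 2)), Category.id_comp]
    · exact absurd rfl hj
  obtain ⟨φ, hφ, hφp⟩ := hf.exists_lift q _ hcomm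
  have hd1 : SSet.stdSimplex.δ (1 : Fin 2) ≫ SSet.stdSimplex.δ (2 : Fin 3) =
      SSet.stdSimplex.δ (1 : Fin 2) ≫ SSet.stdSimplex.δ (1 : Fin 3) :=
    SSet.stdSimplex.δ_comp_δ (i := (1 : Fin 2)) (j := (1 : Fin 2)) le_rfl
  have hd0 : SSet.stdSimplex.δ (0 : Fin 2) ≫ SSet.stdSimplex.δ (2 : Fin 3) =
      SSet.stdSimplex.δ (1 : Fin 2) ≫ SSet.stdSimplex.δ (0 : Fin 3) :=
    SSet.stdSimplex.δ_comp_δ (i := (0 : Fin 2)) (j := (1 : Fin 2)) (by simp)
  refine ⟨uncurry (SSet.stdSimplex.δ (2 : Fin 3) ≫ φ), ?_, ?_, ?_⟩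
  · rw [ι₀_uncurry, ← Category.assoc (SSet.stdSimplex.δ 1), hd1, Category.assoc,
      hφ 1 (by decide)]
    simp only [f, if_neg (show (1 : Fin 3) ≠ 0 by decide)]
    rw [← ι₀_uncurry]
    simp [e, h₀]
  · rw [ι₁_uncurry, ← Category.assoc (SSet.stdSimplex.δ 0), hd0, Category.assoc,
      hφ 0 (by decide)]
    simp only [f, if_pos]
    rw [← ι₀_uncurry, uncurry_natural_right]
    simp [e, reassoc_of% h₀]
  · rw [← uncurry_natural_right, Category.assoc, hφp, ← Category.assoc,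
      show SSet.stdSimplex.δ (2 : Fin 3) ≫ SSet.stdSimplex.σ (0 : Fin 2) =
          SSet.stdSimplex.σ (0 : Fin 1) ≫ SSet.stdSimplex.δ (1 : Fin 2) from
        SSet.stdSimplex.δ_comp_σ_of_gt (i := (1 : Fin 2)) (j := (0 : Fin 1)) (by simp),
      Category.assoc, uncurry_natural_left, ← Category.assoc (SSet.stdSimplex.δ 1),
      uncurry_natural_right]
    have : uncurry (SSet.stdSimplex.δ (1 : Fin 2) ≫ e) = fst E Δ[0] := by
      apply toPoint_hom_ext
      rw [← ι₀_uncurry, toPoint_fst]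
      simp [e, h₀]
    rw [this]
    simp

/-- A fibration with a vertical homotopy inverse section is a trivial fibration. -/
lemma rlp_monomorphisms_of_vertical (p : E ⟶ S) [Fibration p] (s : S ⟶ E) (hs : s ≫ p = 𝟙 S)
    (H : E ⊗ Δ[1] ⟶ E) (h₀ : SSet.ι₀ ≫ H = 𝟙 E) (h₁ : SSet.ι₁ ≫ H = p ≫ s)
    (hp : H ≫ p = fst E Δ[1] ≫ p) : (monomorphisms SSet.{0}).rlp p := by
  intro U V m (hm : Mono m)
  refine ⟨fun {u v} sq => ?_⟩
  let po := Functor.PushoutObjObj.ofHasPushout (curriedTensor SSet.{0}) m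
    (SSet.stdSimplex.{0}.δ (0 : Fin 2) : Δ[0] ⟶ Δ[1])
  have hw := sq.w
  let τ : po.pt ⟶ E := po.isPushout.desc (fst V Δ[0] ≫ v ≫ s) (u ▷ Δ[1] ≫ H) (by
    dsimp
    have := isIso_toPoint U
    rw [← cancel_epi (toPoint U)]
    rw [← toPoint_naturality_assoc, toPoint_fst_assoc, toPoint_δ_zero_assoc,
      SSet.ι₁_comp_assoc, h₁, reassoc_of% hw])
  have hτ : τ ≫ p = po.ι ≫ fst V Δ[1] ≫ v := by
    apply po.isPushout.hom_ext
    · rw [IsPushout.inl_desc_assoc, Category.assoc, Category.assoc, hs, Category.comp_id,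
        Functor.PushoutObjObj.inl_ι_assoc]
      simp
    · rw [IsPushout.inr_desc_assoc, Category.assoc, hp, Functor.PushoutObjObj.inr_ι_assoc]
      simp [hw]
  have hlift := SSet.anodyneExtensions_pushoutObjObjι po (anodyne_δ 0) p (mem_fibrations p)
  have sq' : CommSq τ po.ι p (fst V Δ[1] ≫ v) := ⟨hτ⟩
  refine ⟨⟨{ l := SSet.ι₀ ≫ sq'.lift, fac_left := ?_, fac_right := ?_ }⟩⟩
  · rw [← SSet.ι₀_comp_assoc, show m ▷ Δ[1] = po.inr ≫ po.ι from po.inr_ι.symm,
      Category.assoc, sq'.fac_left, IsPushout.inr_desc, SSet.ι₀_comp_assoc, h₀,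
      Category.comp_id]
  · simp

/-- The class whose left orthogonal, among monomorphisms, gives the weak equivalences. -/
inductive preMaps : MorphismProperty SSet.{0}
  | mk {U V : SSet.{0}} (m : U ⟶ V) [Mono m] (K : SSet.{0}) [SSet.KanComplex K] :
      preMaps ((pre m).app K)

lemma hasLiftingProperty_pre_comm (i : A ⟶ B) (m : U ⟶ V) (K : SSet.{0}) :
    HasLiftingProperty i ((pre m).app K) ↔ HasLiftingProperty m ((pre i).app K) := by
  let sq := Functor.PushoutObjObj.ofHasPushout (curriedTensor SSet.{0}) i m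
  have h₁ := internalHomAdjunction₂.hasLiftingProperty_iff sq
    (Functor.PullbackObjObj.ofIsTerminal MonoidalClosed.internalHom i (terminal.from K)
      terminalIsTerminal)
  have h₂ := internalHomAdjunction₂.hasLiftingProperty_iff sq.flipTensor
    (Functor.PullbackObjObj.ofIsTerminal MonoidalClosed.internalHom m (terminal.from K)
      terminalIsTerminal)
  have h₃ : HasLiftingProperty sq.ι (terminal.from K) ↔
      HasLiftingProperty sq.flipTensor.ι (terminal.from K) :=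
    HasLiftingProperty.iff_of_arrow_iso_left
      (Arrow.isoMk (Iso.refl _) (β_ _ _) : Arrow.mk sq.ι ≅ Arrow.mk sq.flipTensor.ι) _
  have h₄ := h₂.symm.trans (h₃.symm.trans h₁)
  simp only [Functor.PullbackObjObj.ofIsTerminal_π, internalHom_map, Quiver.Hom.unop_op] at h₄
  exact h₄

lemma llp_preMaps_iff (i : A ⟶ B) :
    preMaps.llp i ↔
      ∀ (K : SSet.{0}), SSet.KanComplex K → (monomorphisms SSet.{0}).rlp ((pre i).app K) := by
  constructor
  · intro h K hK U V m (hm : Mono m)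
    exact (hasLiftingProperty_pre_comm i m K).1 (h _ (.mk m K))
  · rintro h _ _ _ ⟨m, K⟩
    exact (hasLiftingProperty_pre_comm i m K).2 (h K inferInstance m (inferInstanceAs (Mono m)))

end Vale.Agent.P213.HT
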