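import Vale.Agent.P213.HT.MonoWE
import Mathlib.AlgebraicTopology.SimplicialSet.Monomorphisms
import Mathlib.AlgebraicTopology.SimplicialSet.SubcomplexColimits

/-!
# A monomorphism is a weak equivalence iff restriction along it gives trivial fibrations
-/

open CategoryTheory MonoidalCategory CartesianMonoidalCategory MonoidalClosed Simplicial Limits
open HomotopicalAlgebra SSet.modelCategoryQuillen MorphismProperty

namespace Vale.Agent.P213.HT

attribute [local instance 2000] CategoryTheory.FunctorToTypes.monoidalClosed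

variable {X Y Z K A B E S U V : SSet.{0}}

lemma Htpc.rfl' (f : X ⟶ Y) : Htpc f f :=
  Htpc.mk (fst X Δ[1] ≫ f) (by simp) (by simp)

lemma toPoint_uncurry_curry_δ {h : X ⊗ Δ[1] ⟶ Y} :
    toPoint X ≫ uncurry (SSet.stdSimplex.δ (1 : Fin 2) ≫ curry h) = SSet.ι₀ ≫ h ∧
      toPoint X ≫ uncurry (SSet.stdSimplex.δ (0 : Fin 2) ≫ curry h) = SSet.ι₁ ≫ h := by
  constructor
  · rw [← ι₀_uncurry, uncurry_curry]
  · rw [← ι₁_uncurry, uncurry_curry]

/-- For a Kan target, two homotopies with the same origin give one between their ends. -/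
lemma htpc_of_common_source [SSet.KanComplex K] {f g l : X ⟶ K} (H : Htpc f g) (H' : Htpc f l) :
    Htpc g l := by
  obtain ⟨h, h₀, h₁⟩ := Htpc.exists_map H
  obtain ⟨k, k₀, k₁⟩ := Htpc.exists_map H'
  let F : ∀ j : Fin 3, j ≠ 0 → (Δ[1] ⟶ (ihom X).obj K) :=
    fun j _ => if j = 1 then curry k else curry h
  have hF : SSet.horn.IsCompatible (i := (0 : Fin 3)) F := by
    intro a b ha hb hab
    fin_cases a <;> fin_cases b <;> first
      | exact absurd rfl ha
      | exact absurd rfl hb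
      | exact absurd hab (by decide)
      | skip
    suffices SSet.stdSimplex.δ (1 : Fin 2) ≫ curry k =
        SSet.stdSimplex.δ (1 : Fin 2) ≫ curry h by simpa [F] using this
    apply uncurry_injective
    apply toPoint_hom_ext
    rw [toPoint_uncurry_curry_δ.1, toPoint_uncurry_curry_δ.1, k₀, h₀]
  obtain ⟨φ, hφ⟩ := hF.exists_lift_of_kanComplex
  have hd1 : SSet.stdSimplex.δ (1 : Fin 2) ≫ SSet.stdSimplex.δ (0 : Fin 3) =
      SSet.stdSimplex.δ (0 : Fin 2) ≫ SSet.stdSimplex.δ (2 : Fin 3) :=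
    (SSet.stdSimplex.δ_comp_δ (i := (0 : Fin 2)) (j := (1 : Fin 2)) (by simp)).symm
  have hd0 : SSet.stdSimplex.δ (0 : Fin 2) ≫ SSet.stdSimplex.δ (0 : Fin 3) =
      SSet.stdSimplex.δ (0 : Fin 2) ≫ SSet.stdSimplex.δ (1 : Fin 3) :=
    (SSet.stdSimplex.δ_comp_δ (i := (0 : Fin 2)) (j := (0 : Fin 2)) le_rfl).symm
  refine Htpc.mk (uncurry (SSet.stdSimplex.δ (0 : Fin 3) ≫ φ)) ?_ ?_
  · rw [ι₀_uncurry, ← Category.assoc (SSet.stdSimplex.δ 1), hd1, Category.assoc,
      hφ 2 (by decide)]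
    simp only [F, if_neg (show (2 : Fin 3) ≠ 1 by decide)]
    rw [toPoint_uncurry_curry_δ.2, h₁]
  · rw [ι₁_uncurry, ← Category.assoc (SSet.stdSimplex.δ 0), hd0, Category.assoc,
      hφ 1 (by decide)]
    simp only [F, if_pos]
    rw [toPoint_uncurry_curry_δ.2, k₁]

lemma htpc_of_eqv [SSet.KanComplex K] {f g : X ⟶ K} (H : HtpcEqv f g) : Htpc f g := by
  induction H with
  | rel a b h => exact h
  | refl a => exact Htpc.rfl' a
  | symm a b _ ih => exact htpc_of_common_source ih (Htpc.rfl' a)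
  | trans a b c _ _ ih₁ ih₂ =>
    exact htpc_of_common_source (htpc_of_common_source ih₁ (Htpc.rfl' a)) ih₂

lemma rlp_pre_of_isWE {i : A ⟶ B} [Mono i] (hi : IsWE i) (K : SSet.{0}) [SSet.KanComplex K] :
    (monomorphisms SSet.{0}).rlp ((pre i).app K) := by
  set p := (pre i).app K
  obtain ⟨s₀, hs₀⟩ := exists_lift_pre hi (K := K) (𝟙 ((ihom A).obj K))
  obtain ⟨h, h₀, h₁⟩ := Htpc.exists_map (htpc_of_eqv hs₀)
  have sq : CommSq s₀ SSet.ι₀ p h := ⟨h₀.symm⟩
  have : HasLiftingProperty (SSet.ι₀ : (ihom A).obj K ⟶ _) p :=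
    anodyne_ι₀ _ p (mem_fibrations p)
  set s := SSet.ι₁ ≫ sq.lift
  have hs : s ≫ p = 𝟙 _ := by simp [s, h₁]
  have hH : Htpc (𝟙 _) (p ≫ s) := htpc_of_eqv (htpcEqv_of_pre hi (by
    show HtpcEqv (𝟙 _ ≫ p) ((p ≫ s) ≫ p)
    rw [Category.assoc, hs, Category.id_comp, Category.comp_id]
    exact .refl _))
  obtain ⟨H, H₀, H₁, Hp⟩ := exists_vertical p s hs hH
  exact rlp_monomorphisms_of_vertical p s hs H H₀ H₁ Hp

lemma bicartSq_boundary_one :
    Lattice.BicartSq (⊥ : (Δ[1] : SSet.{0}).Subcomplex) (SSet.stdSimplex.face {(0 : Fin 2)}ᶜ)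
      (SSet.stdSimplex.face {(1 : Fin 2)}ᶜ) ∂Δ[1] where
  sup_eq := by
    rw [SSet.boundary_eq_iSup]
    apply le_antisymm
    · exact sup_le (le_iSup (fun i : Fin 2 => SSet.stdSimplex.face {i}ᶜ) 0)
        (le_iSup (fun i : Fin 2 => SSet.stdSimplex.face {i}ᶜ) 1)
    · refine iSup_le fun i => ?_
      fin_cases i
      exacts [le_sup_left, le_sup_right]
  inf_eq := by
    rw [SSet.stdSimplex.face_inter_face]
    ext ⟨⟨d⟩⟩ x
    rw [SSet.stdSimplex.mem_face_iff]
    simp only [Subfunctor.bot_obj, Set.bot_eq_empty, Set.mem_empty_iff_false, iff_false]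
    intro h
    have := h 0
    revert this
    generalize x 0 = k
    fin_cases k <;> simp

lemma exists_boundary_desc (f g : Δ[0] ⟶ Z) :
    ∃ τ : (∂Δ[1] : SSet.{0}) ⟶ Z, SSet.boundary.ι 0 ≫ τ = f ∧ SSet.boundary.ι 1 ≫ τ = g := by
  let φ := fun k : Fin 2 => SSet.stdSimplex.faceSingletonComplIso.{0} (n := 0) k
  refine ⟨(SSet.Subcomplex.BicartSq.isPushout bicartSq_boundary_one).desc ((φ 0).inv ≫ f) ((φ 1).inv ≫ g)
    (SSet.Subcomplex.isInitialBot.hom_ext _ _), ?_, ?_⟩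
  · have h : SSet.boundary.ι (0 : Fin 2) = (φ 0).hom ≫ SSet.boundary.faceι (0 : Fin 2) := by
      rw [← Iso.inv_comp_eq]; simp [φ]
    rw [h, Category.assoc]
    erw [IsPushout.inl_desc]
    simp
  · have h : SSet.boundary.ι (1 : Fin 2) = (φ 1).hom ≫ SSet.boundary.faceι (1 : Fin 2) := by
      rw [← Iso.inv_comp_eq]; simp [φ]
    rw [h, Category.assoc]
    erw [IsPushout.inr_desc]
    simp

lemma isWE_of_rlp_pre {i : A ⟶ B}
    (hi : ∀ (K : SSet.{0}), SSet.KanComplex K → (monomorphisms SSet.{0}).rlp ((pre i).app K)) :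
    IsWE i := by
  intro K hK
  have hrlp := hi K hK
  refine ⟨fun a => ?_, fun b b' hb => ?_⟩
  · have sq : CommSq (initial.to ((ihom B).obj K)) (initial.to (Δ[0] : SSet.{0}))
        ((pre i).app K) (curry (fst A Δ[0] ≫ a)) := ⟨initial.hom_ext _ _⟩
    have := hrlp (initial.to (Δ[0] : SSet.{0})) (monomorphisms.infer_property _)
    refine ⟨toPoint B ≫ uncurry sq.lift, ?_⟩
    have : i ≫ toPoint B ≫ uncurry sq.lift = a := by
      rw [toPoint_naturality_assoc, ← uncurry_pre_app, sq.fac_right, uncurry_curry,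
        toPoint_fst_assoc]
    rw [this]
    exact .refl _
  · obtain ⟨h, h₀, h₁⟩ := Htpc.exists_map (htpc_of_eqv hb)
    obtain ⟨τ, hτ₀, hτ₁⟩ := exists_boundary_desc (curry (fst B Δ[0] ≫ b'))
      (curry (fst B Δ[0] ≫ b))
    have hw : τ ≫ (pre i).app K = ∂Δ[1].ι ≫ curry h := by
      refine SSet.boundary.hom_ext (fun j => ?_)
      apply uncurry_injective
      apply toPoint_hom_ext
      fin_cases j
      · simp only [Fin.zero_eta, SSet.boundary.ι_ι_assoc, reassoc_of% hτ₀]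
        rw [toPoint_uncurry_curry_δ.2, h₁, uncurry_pre_app, uncurry_curry,
          ← toPoint_naturality_assoc, toPoint_fst_assoc]
      · simp only [Fin.mk_one, SSet.boundary.ι_ι_assoc, reassoc_of% hτ₁]
        rw [toPoint_uncurry_curry_δ.1, h₀, uncurry_pre_app, uncurry_curry,
          ← toPoint_naturality_assoc, toPoint_fst_assoc]
    have sq : CommSq τ ∂Δ[1].ι ((pre i).app K) (curry h) := ⟨hw⟩
    have := hrlp ∂Δ[1].ι (monomorphisms.infer_property _)
    refine .rel _ _ (Htpc.mk (uncurry sq.lift) ?_ ?_)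
    · rw [ι₀_uncurry, ← SSet.boundary.ι_ι (1 : Fin 2), Category.assoc, sq.fac_left, hτ₁,
        uncurry_curry, toPoint_fst_assoc]
    · rw [ι₁_uncurry, ← SSet.boundary.ι_ι (0 : Fin 2), Category.assoc, sq.fac_left, hτ₀,
        uncurry_curry, toPoint_fst_assoc]

/-- Monomorphisms which are weak equivalences are the monomorphisms in a left orthogonal. -/
theorem monoWE_eq : monomorphisms SSet.{0} ⊓ IsWE = monomorphisms SSet.{0} ⊓ preMaps.llp := by
  ext A B i
  refine ⟨fun ⟨hm, hw⟩ => ⟨hm, ?_⟩, fun ⟨hm, hl⟩ => ⟨hm, ?_⟩⟩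
  · have : Mono i := hm
    exact (llp_preMaps_iff i).2 (fun K _ => rlp_pre_of_isWE hw K)
  · exact isWE_of_rlp_pre ((llp_preMaps_iff i).1 hl)

instance : (monomorphisms SSet.{0} ⊓ IsWE).IsStableUnderCobaseChange := by
  rw [monoWE_eq]; infer_instance

instance : (monomorphisms SSet.{0} ⊓ IsWE).IsStableUnderRetracts := by
  rw [monoWE_eq]; infer_instance

instance : (monomorphisms SSet.{0} ⊓ IsWE).IsMultiplicative := by
  rw [monoWE_eq]; infer_instance

instance : IsStableUnderCoproducts.{0} (monomorphisms SSet.{0} ⊓ IsWE) := by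
  rw [monoWE_eq]
  refine ⟨fun J => ⟨fun X₁ X₂ c₁ c₂ h₁ h₂ f hf φ hφ => ⟨?_, ?_⟩⟩⟩
  · exact IsStableUnderColimitsOfShape.condition X₁ X₂ c₁ c₂ h₁ h₂ f (fun j => (hf j).1) φ hφ
  · exact IsStableUnderColimitsOfShape.condition X₁ X₂ c₁ c₂ h₁ h₂ f (fun j => (hf j).2) φ hφ

instance : IsStableUnderTransfiniteComposition.{0} (monomorphisms SSet.{0} ⊓ IsWE) := by
  rw [monoWE_eq]
  refine ⟨fun J => ⟨fun X Y f ⟨hf⟩ => ⟨?_, ?_⟩⟩⟩
  · exact transfiniteCompositionsOfShape_le _ J _ ⟨hf.ofLE inf_le_left⟩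
  · exact transfiniteCompositionsOfShape_le _ J _ ⟨hf.ofLE inf_le_right⟩

/-- Anodyne extensions are monomorphisms and weak equivalences. -/
theorem anodyne_le_monoWE : SSet.anodyneExtensions.{0} ≤ monomorphisms SSet.{0} ⊓ IsWE := by
  rw [monoWE_eq]
  refine le_inf ?_ ?_
  · rw [SSet.anodyneExtensions_eq_retracts_transfiniteCompositionsOfShape]
    have h : (coproducts.{0} J.{0}).pushouts ≤ monomorphisms SSet.{0} := by
      rw [pushouts_le_iff, coproducts_le_iff]
      exact J_le_monomorphisms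
    exact ((retracts_monotone ((transfiniteCompositionsOfShape_monotone (J := ℕ) h).trans
      (transfiniteCompositionsOfShape_le _ ℕ)))).trans (retracts_le _)
  · intro A B i hi
    rintro _ _ _ ⟨m, K⟩
    exact hi _ (mem_fibrations _)

end Vale.Agent.P213.HT
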