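import Vale.Agent.P213.HT.MonoWEIff
import Vale.Agent.P213.WE.HtpcBasic
import Vale.Agent.P213.Main.SSetGoals
import Mathlib.CategoryTheory.Limits.Types.Pushouts

/-!
# Left properness and the gluing lemma
-/

open CategoryTheory MonoidalCategory CartesianMonoidalCategory Simplicial Limits
open HomotopicalAlgebra SSet.modelCategoryQuillen MorphismProperty

namespace Vale.Agent.P213.HT

variable {A B C D A' B' C' D' M : SSet.{0}}

lemma isWE_of_anodyneExtension {f : A ⟶ B} (hf : SSet.anodyneExtensions f) : IsWE f :=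
  (anodyne_le_monoWE _ hf).2

lemma isWE_of_section {s : A ⟶ B} {r : B ⟶ A} (hs : IsWE s) (h : s ≫ r = 𝟙 A) : IsWE r :=
  IsWE.of_comp_left hs (by rw [h]; exact IsWE.id _)

lemma mono_pushoutInr {f : A ⟶ C} {i : A ⟶ B} {g : B ⟶ D} {j : C ⟶ D}
    (sq : IsPushout i f g j) [hi : Mono i] : Mono j :=
  MorphismProperty.of_isPushout (P := monomorphisms SSet.{0}) sq.flip
    (monomorphisms.infer_property i)

lemma monoWE_pushout {f : A ⟶ C} {i : A ⟶ B} {g : B ⟶ D} {j : C ⟶ D}
    (sq : IsPushout i f g j) [hi : Mono i] (h : IsWE i) : IsWE j :=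
  (MorphismProperty.of_isPushout (P := monomorphisms SSet.{0} ⊓ IsWE) sq.flip
    ⟨monomorphisms.infer_property i, h⟩).2

/-- An element outside the image of the injective leg is not identified with any other. -/
lemma inl_inj_of_notMem {X₁ X₂ X₃ X₄ : Type} {t : X₁ ⟶ X₂} {l : X₁ ⟶ X₃} {r : X₂ ⟶ X₄}
    {b : X₃ ⟶ X₄} (h : IsPushout t l r b) {x y : X₂} (hx : x ∉ Set.range t) (hxy : r x = r y) :
    x = y := by
  classical
  let φ : X₂ ⟶ Option X₂ := ↾fun z => if z ∈ Set.range t then none else some z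
  have := congrArg (h.desc φ (↾fun _ => none) (by ext z; simp [φ])) hxy
  have h₂ := fun z => ConcreteCategory.congr_hom (h.inl_desc φ (↾fun _ => none)
    (by ext z; simp [φ])) z
  simp only [ConcreteCategory.comp_apply] at h₂
  rw [h₂, h₂] at this
  simp only [φ, TypeCat.ofHom_apply] at this
  rw [if_neg hx] at this
  split at this <;> simp at this
  exact this

/-- The mapping cylinder of `f`: a factorisation as a monomorphism followed by a retraction. -/
lemma exists_cylinder (f : A ⟶ C) :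
    ∃ (M : SSet.{0}) (a : A ⊗ Δ[1] ⟶ M) (c : C ⟶ M) (r : M ⟶ C),
      IsPushout SSet.ι₁ f a c ∧ c ≫ r = 𝟙 C ∧ a ≫ r = fst A Δ[1] ≫ f ∧
      (SSet.ι₀ ≫ a) ≫ r = f ∧ Mono (SSet.ι₀ ≫ a) ∧ IsWE r := by
  have sq : IsPushout SSet.ι₁ f (pushout.inl SSet.ι₁ f) (pushout.inr SSet.ι₁ f) :=
    .of_hasPushout _ _
  let r := pushout.desc (fst A Δ[1] ≫ f) (𝟙 C)
    (show SSet.ι₁ ≫ fst A Δ[1] ≫ f = f ≫ 𝟙 C by simp)
  refine ⟨_, _, _, r, sq, pushout.inr_desc _ _ _, pushout.inl_desc _ _ _, ?_, ?_, ?_⟩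
  · rw [Category.assoc, pushout.inl_desc]
    simp
  · suffices ∀ n, Mono ((SSet.ι₀ ≫ pushout.inl SSet.ι₁ f).app n) from NatTrans.mono_of_mono_app _
    rintro ⟨⟨m⟩⟩
    rw [mono_iff_injective]
    intro x y hxy
    have hx : SSet.ι₀.app _ x ∉ Set.range ((SSet.ι₁ : A ⟶ A ⊗ Δ[1]).app (Opposite.op ⦋m⦌)) := by
      rintro ⟨z, hz⟩
      exact absurd ((SSet.ι₁_app_snd_apply z 0).symm.trans
        ((congrArg (fun w => w.2 0) hz).trans (SSet.ι₀_app_snd_apply x 0))) (by decide)
    exact congrArg Prod.fst (inl_inj_of_notMem (sq.app _) hx hxy)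
  · have hc : SSet.anodyneExtensions (pushout.inr SSet.ι₁ f) :=
      MorphismProperty.of_isPushout sq.flip (anodyne_ι₁ A)
    exact isWE_of_section (isWE_of_anodyneExtension hc) (pushout.inr_desc _ _ _)

/-- Cobase change of the retraction of a mapping cylinder along a monomorphism. -/
lemma isWE_cylinder_map (i : A ⟶ B) [Mono i] {f : A ⟶ C} {g : B ⟶ D} {j : C ⟶ D}
    (sqD : IsPushout i f g j) {a : A ⊗ Δ[1] ⟶ M} {c : C ⟶ M}
    (sqM : IsPushout SSet.ι₁ f a c) {r : M ⟶ C} (hcr : c ≫ r = 𝟙 C)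
    (har : a ≫ r = fst A Δ[1] ≫ f) {N : SSet.{0}} {b : B ⟶ N} {k : M ⟶ N}
    (sqN : IsPushout i (SSet.ι₀ ≫ a) b k) {R : N ⟶ D} (hbR : b ≫ R = g) (hkR : k ≫ R = r ≫ j) :
    IsWE R := by
  let Q := pushout (SSet.ι₁ : B ⟶ B ⊗ Δ[1]) g
  let u : B ⊗ Δ[1] ⟶ Q := pushout.inl _ _
  let v : D ⟶ Q := pushout.inr _ _
  have sqQ : IsPushout SSet.ι₁ g u v := .of_hasPushout _ _
  let π : Q ⟶ D := pushout.desc (fst B Δ[1] ≫ g) (𝟙 D)
    (show SSet.ι₁ ≫ fst B Δ[1] ≫ g = g ≫ 𝟙 D by simp)
  have hπ : IsWE π :=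
    isWE_of_section (isWE_of_anodyneExtension (MorphismProperty.of_isPushout sqQ.flip (anodyne_ι₁ B)))
      (pushout.inr_desc _ _ _)
  let k' : M ⟶ Q := sqM.desc (i ▷ Δ[1] ≫ u) (j ≫ v) (by
    rw [SSet.ι₁_comp_assoc, sqQ.w, sqD.w_assoc])
  let θ : N ⟶ Q := sqN.desc (SSet.ι₀ ≫ u) k' (by
    rw [Category.assoc, IsPushout.inl_desc, SSet.ι₀_comp_assoc])
  have hθR : θ ≫ π = R := by
    apply sqN.hom_ext
    · rw [IsPushout.inl_desc_assoc, hbR, Category.assoc, pushout.inl_desc]
      simp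
    · rw [IsPushout.inr_desc_assoc, hkR]
      apply sqM.hom_ext
      · rw [IsPushout.inl_desc_assoc, Category.assoc, pushout.inl_desc, reassoc_of% har,
          ← sqD.w]
        simp
      · rw [IsPushout.inr_desc_assoc, Category.assoc, pushout.inr_desc, reassoc_of% hcr,
          Category.comp_id]
  -- the pushout product of `i` and the inclusion of the vertex `0`
  let P₀ := pushout i (SSet.ι₀ : A ⟶ A ⊗ Δ[1])
  let ρ : P₀ ⟶ B ⊗ Δ[1] := pushout.desc SSet.ι₀ (i ▷ Δ[1]) (SSet.ι₀_comp i).symm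
  have hρ : SSet.anodyneExtensions ρ := by
    let po := Functor.PushoutObjObj.ofHasPushout (curriedTensor SSet.{0}) i
      (SSet.stdSimplex.{0}.δ (1 : Fin 2) : Δ[0] ⟶ Δ[1])
    have := isIso_toPoint A
    have := isIso_toPoint B
    have h := SSet.anodyneExtensions_pushoutObjObjι po (anodyne_δ 1)
    let e : P₀ ⟶ po.pt := pushout.desc (toPoint B ≫ po.inl) po.inr (by
      have := toPoint A ≫= po.isPushout.w
      dsimp at this
      rw [← toPoint_naturality_assoc, toPoint_δ_one_assoc] at this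
      exact this)
    let e' : po.pt ⟶ P₀ := po.isPushout.desc (fst B Δ[0] ≫ pushout.inl _ _) (pushout.inr _ _) (by
      dsimp
      rw [← cancel_epi (toPoint A), ← toPoint_naturality_assoc, toPoint_fst_assoc,
        toPoint_δ_one_assoc, pushout.condition])
    have : IsIso e := by
      refine ⟨e', ?_, ?_⟩
      · apply pushout.hom_ext
        · rw [pushout.inl_desc_assoc, Category.assoc]
          erw [IsPushout.inl_desc]
          rw [toPoint_fst_assoc, Category.comp_id]
        · rw [pushout.inr_desc_assoc]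
          erw [IsPushout.inr_desc]
          rw [Category.comp_id]
      · apply po.isPushout.hom_ext
        · rw [← cancel_epi (toPoint B)]
          erw [IsPushout.inl_desc_assoc]
          rw [Category.assoc, toPoint_fst_assoc]
          erw [pushout.inl_desc]
          rw [Category.comp_id]
        · erw [IsPushout.inr_desc_assoc]
          erw [pushout.inr_desc]
          rw [Category.comp_id]
    have he : e ≫ po.ι = ρ := by
      apply pushout.hom_ext
      · erw [pushout.inl_desc_assoc, pushout.inl_desc, Category.assoc, po.inl_ι]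
        exact toPoint_δ_one B
      · erw [pushout.inr_desc_assoc, po.inr_ι, pushout.inr_desc]
        rfl
    rw [← he]
    exact SSet.anodyneExtensions.comp_mem _ _ (.of_isIso e) h
  let τ : P₀ ⟶ N := pushout.desc b (a ≫ k) (by rw [sqN.w, Category.assoc])
  have sq₁ : IsPushout ρ τ u θ := by
    refine IsPushout.of_isColimit' ⟨?_⟩ ?_
    · apply pushout.hom_ext
      · rw [pushout.inl_desc_assoc, pushout.inl_desc_assoc, IsPushout.inl_desc]
      · rw [pushout.inr_desc_assoc, pushout.inr_desc_assoc, Category.assoc, IsPushout.inr_desc,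
          IsPushout.inl_desc]
    · refine PushoutCocone.IsColimit.mk _ (fun s => sqQ.desc s.inl
        (sqD.desc (SSet.ι₁ ≫ s.inl) (c ≫ k ≫ s.inr) ?_) ?_) ?_ ?_ ?_
      · have hs : i ▷ Δ[1] ≫ s.inl = a ≫ k ≫ s.inr := by
          have := pushout.inr i (SSet.ι₀ : A ⟶ A ⊗ Δ[1]) ≫= s.condition
          rwa [pushout.inr_desc_assoc, pushout.inr_desc_assoc, Category.assoc] at this
        rw [← SSet.ι₁_comp_assoc, hs, sqM.w_assoc]
      · rw [IsPushout.inl_desc]
      · intro s; exact sqQ.inl_desc _ _ _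
      · intro s
        apply sqN.hom_ext
        · rw [IsPushout.inl_desc_assoc, Category.assoc, IsPushout.inl_desc]
          have := pushout.inl i (SSet.ι₀ : A ⟶ A ⊗ Δ[1]) ≫= s.condition
          rwa [pushout.inl_desc_assoc, pushout.inl_desc_assoc] at this
        · rw [IsPushout.inr_desc_assoc]
          apply sqM.hom_ext
          · rw [IsPushout.inl_desc_assoc, Category.assoc, IsPushout.inl_desc]
            have := pushout.inr i (SSet.ι₀ : A ⟶ A ⊗ Δ[1]) ≫= s.condition
            rwa [pushout.inr_desc_assoc, pushout.inr_desc_assoc, Category.assoc] at this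
          · rw [IsPushout.inr_desc_assoc, Category.assoc, IsPushout.inr_desc,
              IsPushout.inr_desc]
      · intro s m h₁ h₂
        apply sqQ.hom_ext
        · rw [IsPushout.inl_desc]; exact h₁
        · rw [IsPushout.inr_desc]
          apply sqD.hom_ext
          · rw [IsPushout.inl_desc, ← sqQ.w_assoc, h₁]
          · rw [IsPushout.inr_desc, ← h₂, IsPushout.inr_desc_assoc, IsPushout.inr_desc_assoc,
              Category.assoc]
  rw [← hθR]
  exact (isWE_of_anodyneExtension (MorphismProperty.of_isPushout sq₁.flip hρ)).comp hπ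

/-- Left properness: cobase change of a weak equivalence along a monomorphism. -/
theorem isWE_pushout_of_mono {i : A ⟶ B} [Mono i] {f : A ⟶ C} {g : B ⟶ D} {j : C ⟶ D}
    (sq : IsPushout i f g j) (hf : IsWE f) : IsWE g := by
  obtain ⟨M, a, c, r, sqM, hcr, har, hjr, hmono, hr⟩ := exists_cylinder f
  have sqN := IsPushout.of_hasPushout i (SSet.ι₀ ≫ a)
  have hj : IsWE (SSet.ι₀ ≫ a) := IsWE.of_comp_right hr (by rw [hjr]; exact hf)
  have hb : IsWE (pushout.inl i (SSet.ι₀ ≫ a)) := monoWE_pushout sqN.flip hj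
  let R := sqN.desc g (r ≫ j) (by rw [sq.w, ← Category.assoc (SSet.ι₀ ≫ a), hjr])
  rw [show g = pushout.inl i (SSet.ι₀ ≫ a) ≫ R from (sqN.inl_desc _ _ _).symm]
  exact hb.comp (isWE_cylinder_map i sq sqM hcr har sqN (sqN.inl_desc _ _ _)
    (sqN.inr_desc _ _ _))

theorem cobaseGoal : CobaseGoal := by
  intro A B A' B' i f f' i' sq hi
  exact ⟨fun hf => isWE_pushout_of_mono sq hf, fun h => monoWE_pushout sq h⟩

end Vale.Agent.P213.HT
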